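import Vale.Agent.P221.H929.Stable

/-!
# P221: objects approximated in high degrees by a thick subcategory
-/

set_option linter.unusedSectionVars false

open CategoryTheory Limits Pretriangulated MonoidalCategory Vale.Agent.P261

universe v u

namespace Vale.Agent.P221

variable {C : Type u} [Category.{v} C] [Preadditive C] [HasZeroObject C] [HasShift C ℤ]
    [∀ n : ℤ, (shiftFunctor C n).Additive] [Pretriangulated C] [MonoidalCategory C]
    [BraidedCategory C] [TensorTriangulated C]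

/-- `X` is bounded below and all groups `π_i (M ⊗ X)` are finite (for `p`-complete `X` and the mod
`p` Moore spectrum `M` this means that all `π_i X` are finitely generated over `ℤ_p`). -/
def Good (M X : C) : Prop := BoundedBelow X ∧ FinMod M X

section

variable {M : C}

lemma stable_good : Stable (Good M) := stable_boundedBelow.and (stable_finMod M)

lemma Thick.good {Q : C → Prop} (hQ : ∀ X, Q X → Good M X) {X : C} (h : Thick Q X) :
    Good M X := stable_good.of_thick hQ h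

/-- Standing assumptions: the homotopy `t`-structure, `M` is a Moore spectrum (with cells in
dimensions `0` and `1`), all objects of `Q` are good, and bounded above good objects lie in the
thick subcategory generated by `Q`. -/
structure Setup (M : C) (Q : C → Prop) : Prop where
  trunc : HasTruncations C
  moore : ∃ (c : 𝟙_ C ⟶ 𝟙_ C) (a : 𝟙_ C ⟶ M) (b : M ⟶ (𝟙_ C)⟦(1 : ℤ)⟧),
    Triangle.mk c a b ∈ distTriang C
  good : ∀ X, Q X → Good M X
  bounded : ∀ X : C, Good M X → BoundedAbove X → Thick Q X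

variable {Q : C → Prop} (S : Setup M Q)
include S

/-- `M ⊗ Z` for `Z` with homotopy in degrees `< N`. -/
lemma moore_vanishGE {N : ℤ} {Z : C} (hZ : VanishGE N Z) : VanishGE (N + 1) (M ⊗ Z) := by
  obtain ⟨c, a, b, hM⟩ := S.moore
  have hT := TensorTriangulated.distinguished Z _ hM
  have h1 : VanishGE N (Z ⊗ 𝟙_ C) := hZ.of_iso (ρ_ Z).symm
  have h2 : VanishGE (N + 1) (Z ⊗ M) := fun i hi =>
    vanish_obj₂ (rot_of_distTriang _ hT) (h1 i (by omega)) (h1.shift 1 i hi)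
  exact h2.of_iso (β_ Z M)

/-- `M ⊗ Z` for `Z` with homotopy in degrees `≥ N`. -/
lemma moore_vanishLT {N : ℤ} {Z : C} (hZ : VanishLT N Z) : VanishLT N (M ⊗ Z) := by
  obtain ⟨c, a, b, hM⟩ := S.moore
  have hT := TensorTriangulated.distinguished Z _ hM
  have h1 : VanishLT N (Z ⊗ 𝟙_ C) := hZ.of_iso (ρ_ Z).symm
  have h2 : VanishLT N (Z ⊗ M) := fun i hi =>
    vanish_obj₂ (rot_of_distTriang _ hT) (h1 i hi) (h1.shift 1 i (by omega))
  exact h2.of_iso (β_ Z M)

/-- The truncations of an object with finite `π_i (M ⊗ Y)` have the same property. -/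
lemma trunc_small {N : ℤ} {T : Triangle C} (hT : T ∈ distTriang C) (hM : FinMod M T.obj₂)
    (h1 : VanishLT N T.obj₁) (h3 : VanishGE N T.obj₃) :
    FinMod M T.obj₁ ∧ FinMod M T.obj₃ := by
  have hMT := TensorTriangulated.distinguished M T hT
  have hf3 : FinMod M T.obj₃ := by
    intro i
    rcases le_or_gt (N + 1) i with hi | hi
    · have := moore_vanishGE S h3 i hi
      have hs : Subsingleton ((𝟙_ C)⟦i⟧ ⟶ M ⊗ T.obj₃) := ⟨fun a b => by rw [this a, this b]⟩
      exact Finite.of_subsingleton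
    · have hv := (moore_vanishLT S h1).shift 1 i hi
      refine isSmallness_finite.of_surjective (hM i) (fun f => f ≫ (M ◁ T.mor₂)) (fun f => ?_)
      obtain ⟨g, hg⟩ := Triangle.coyoneda_exact₃ _ hMT f (hv _)
      exact ⟨g, hg.symm⟩
  exact ⟨(stable_finMod M).obj₁ hT hM hf3, hf3⟩

/-- The truncations of a good object are good. -/
lemma trunc_good {N : ℤ} {T : Triangle C} (hT : T ∈ distTriang C) (hX : BoundedBelow T.obj₂)
    (hM : FinMod M T.obj₂)
    (h1 : VanishLT N T.obj₁) (h3 : VanishGE N T.obj₃) : Good M T.obj₁ ∧ Good M T.obj₃ := by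
  have hb1 : BoundedBelow T.obj₁ := ⟨N, h1⟩
  have hb3 : BoundedBelow T.obj₃ := BoundedBelow.obj₃ hT hb1 hX
  obtain ⟨hs1, hs3⟩ := trunc_small S hT hM h1 h3
  exact ⟨⟨hb1, hs1⟩, hb3, hs3⟩

/-- Connective covers of objects of the thick subcategory stay in it; moreover they approximate. -/
lemma exists_thick_cover {X : C} (hX : Thick Q X) (N : ℤ) :
    ∃ (X' : C) (f : X' ⟶ X), Thick Q X' ∧ VanishLT N X' ∧ HighIso f := by
  obtain ⟨X', Z, f, g, h, hT, h1, h3⟩ := S.trunc.exists_cover N X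
  have hg := Thick.good S.good hX
  obtain ⟨g1, g3⟩ := trunc_good S hT hg.1 hg.2 h1 h3
  exact ⟨X', f, thick_obj₁ hT hX (S.bounded Z g3 ⟨N, h3⟩), h1,
    highIso_of_boundedAbove hT ⟨N, h3⟩⟩

/-- Comparison of two good approximations. -/
theorem thick_of_highIso {X : C} (hX : Thick Q X) {W : C} (hW : Good M W) {Y : C}
    (f : X ⟶ Y) (hf : HighIso f) (g : W ⟶ Y) (hg : HighIso g) : Thick Q W := by
  obtain ⟨Z, q, r, hT⟩ := distinguished_cocone_triangle g
  obtain ⟨N, hN⟩ := boundedAbove_of_highIso hT hg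
  obtain ⟨X', t, hX', hlt, ht⟩ := exists_thick_cover S hX N
  have h0 : (t ≫ f) ≫ q = 0 := S.trunc.hom_zero N _ _ hlt hN _
  obtain ⟨k, hk⟩ : ∃ k : X' ⟶ W, t ≫ f = k ≫ g := Triangle.coyoneda_exact₂ _ hT (t ≫ f) h0
  have hkk : HighIso k := hg.of_comp_right (by rw [← hk]; exact ht.comp hf)
  obtain ⟨V, a, b, hT'⟩ := distinguished_cocone_triangle k
  have hV : Good M V := stable_good.cone _ hT' (Thick.good S.good hX') hW
  exact thick_obj₂ hT' hX' (S.bounded V hV (boundedAbove_of_highIso hT' hkk))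

/-- `Y` is approximated in high degrees by an object of the thick subcategory. -/
def App (Q : C → Prop) (Y : C) : Prop := ∃ (X : C) (f : X ⟶ Y), Thick Q X ∧ HighIso f

omit S in
lemma piBij_shift {X Y : C} {f : X ⟶ Y} {i : ℤ} (h : PiBij i f) (a : ℤ) :
    PiBij (i + a) (f⟦a⟧') := by
  have e : ∀ Z : C, ∀ g : (𝟙_ C)⟦i + a⟧ ⟶ Z⟦a⟧, ∃ g' : (𝟙_ C)⟦i⟧ ⟶ Z,
      (shiftFunctorAdd C i a).hom.app (𝟙_ C) ≫ g'⟦a⟧' = g := by
    intro Z g
    obtain ⟨g', hg'⟩ := (shiftFunctor C a).map_surjective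
      ((shiftFunctorAdd C i a).inv.app (𝟙_ C) ≫ g)
    exact ⟨g', by rw [hg']; simp⟩
  constructor
  · intro x y hxy
    obtain ⟨x', rfl⟩ := e _ x
    obtain ⟨y', rfl⟩ := e _ y
    beta_reduce at hxy
    rw [Category.assoc, Category.assoc, ← Functor.map_comp, ← Functor.map_comp] at hxy
    have h2 := (shiftFunctor C a).map_injective ((cancel_epi _).mp hxy)
    rw [h.1 h2]
  · intro y
    obtain ⟨y', rfl⟩ := e _ y
    obtain ⟨x', hx'⟩ := h.2 y'
    refine ⟨(shiftFunctorAdd C i a).hom.app (𝟙_ C) ≫ x'⟦a⟧', ?_⟩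
    beta_reduce
    rw [Category.assoc, ← Functor.map_comp, ← hx']

omit S in
lemma HighIso.shift {X Y : C} {f : X ⟶ Y} (h : HighIso f) (a : ℤ) : HighIso (f⟦a⟧') := by
  obtain ⟨N, hN⟩ := h
  refine ⟨N + a, fun i hi => ?_⟩
  have := piBij_shift (hN (i - a) (by omega)) a
  have h2 : i - a + a = i := by ring
  rwa [h2] at this

omit S in
lemma App.shift {Y : C} (h : App Q Y) (a : ℤ) : App Q (Y⟦a⟧) := by
  obtain ⟨X, f, hX, hf⟩ := h
  exact ⟨X⟦a⟧, f⟦a⟧', Thick.shift a hX, hf.shift a⟩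

omit S in
/-- Five lemma in high degrees. -/
lemma highIso_third {T T' : Triangle C} (hT : T ∈ distTriang C) (hT' : T' ∈ distTriang C)
    (φ : T ⟶ T') (h₁ : HighIso φ.hom₁) (h₂ : HighIso φ.hom₂) : HighIso φ.hom₃ := by
  obtain ⟨N₁, h₁⟩ := h₁
  obtain ⟨N₂, h₂⟩ := h₂
  refine ⟨max N₁ N₂ + 1, fun i hi => ?_⟩
  have b1 := h₁ i (by omega)
  have b2 := h₂ i (by omega)
  have b1' : PiBij i (φ.hom₁⟦(1 : ℤ)⟧') := by
    have := piBij_shift (h₁ (i - 1) (by omega)) 1
    have h2 : i - 1 + 1 = i := by ring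
    rwa [h2] at this
  have b2' : PiBij i (φ.hom₂⟦(1 : ℤ)⟧') := by
    have := piBij_shift (h₂ (i - 1) (by omega)) 1
    have h2 : i - 1 + 1 = i := by ring
    rwa [h2] at this
  have zT := comp_distTriang_mor_zero₃₁ T hT
  have zT' := comp_distTriang_mor_zero₃₁ T' hT'
  have yT := comp_distTriang_mor_zero₂₃ T hT
  have yT' := comp_distTriang_mor_zero₂₃ T' hT'
  have xT' := comp_distTriang_mor_zero₁₂ T' hT'
  constructor
  · -- injectivity
    intro x y hxy
    beta_reduce at hxy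
    have h0 : (x - y) ≫ φ.hom₃ = 0 := by
      rw [Preadditive.sub_comp, hxy, sub_self]
    have h3 : (x - y) ≫ T.mor₃ = 0 := by
      apply b1'.1
      beta_reduce
      rw [Category.assoc, φ.comm₃, ← Category.assoc, h0, zero_comp, zero_comp]
    obtain ⟨z, hz⟩ := Triangle.coyoneda_exact₃ T hT (x - y) h3
    have h4 : (z ≫ φ.hom₂) ≫ T'.mor₂ = 0 := by
      rw [Category.assoc, ← φ.comm₂, ← Category.assoc, ← hz, h0]
    obtain ⟨w, hw⟩ := Triangle.coyoneda_exact₂ T' hT' _ h4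
    obtain ⟨w', rfl⟩ := b1.2 w
    have h5 : z = w' ≫ T.mor₁ := by
      apply b2.1
      beta_reduce at hw ⊢
      rw [hw, Category.assoc, Category.assoc, φ.comm₁]
    have h6 : x - y = 0 := by
      rw [hz, h5, Category.assoc, comp_distTriang_mor_zero₁₂ T hT, comp_zero]
    exact sub_eq_zero.mp h6
  · -- surjectivity
    intro y
    obtain ⟨x1, hx1⟩ := b1'.2 (y ≫ T'.mor₃)
    beta_reduce at hx1
    have h3 : x1 ≫ T.mor₁⟦(1 : ℤ)⟧' = 0 := by
      apply b2'.1
      beta_reduce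
      rw [Category.assoc, ← Functor.map_comp, φ.comm₁, Functor.map_comp, ← Category.assoc, hx1,
        Category.assoc, zT', comp_zero, zero_comp]
    obtain ⟨x, hx⟩ := Triangle.coyoneda_exact₁ T hT x1 h3
    have h4 : (y - x ≫ φ.hom₃) ≫ T'.mor₃ = 0 := by
      rw [Preadditive.sub_comp, Category.assoc, ← φ.comm₃, ← Category.assoc, ← hx, hx1, sub_self]
    obtain ⟨z, hz⟩ := Triangle.coyoneda_exact₃ T' hT' _ h4
    obtain ⟨z', rfl⟩ := b2.2 z
    refine ⟨x + z' ≫ T.mor₂, ?_⟩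
    beta_reduce at hz ⊢
    rw [Preadditive.add_comp, Category.assoc z', φ.comm₂, ← Category.assoc z', ← hz]
    abel

lemma App.cone {T : Triangle C} (hT : T ∈ distTriang C) (h₁ : App Q T.obj₁)
    (h₂ : App Q T.obj₂) : App Q T.obj₃ := by
  obtain ⟨X₁, f₁, hX₁, hf₁⟩ := h₁
  obtain ⟨X₂, f₂, hX₂, hf₂⟩ := h₂
  obtain ⟨Z, q, r, hZ⟩ := distinguished_cocone_triangle f₂
  obtain ⟨N, hN⟩ := boundedAbove_of_highIso hZ hf₂
  obtain ⟨X', t, hX', hlt, ht⟩ := exists_thick_cover S hX₁ N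
  have h0 : ((t ≫ f₁) ≫ T.mor₁) ≫ q = 0 := S.trunc.hom_zero N _ _ hlt hN _
  obtain ⟨k, hk⟩ : ∃ k : X' ⟶ X₂, (t ≫ f₁) ≫ T.mor₁ = k ≫ f₂ :=
    Triangle.coyoneda_exact₂ _ hZ _ h0
  obtain ⟨X₃, a, b, hT'⟩ := distinguished_cocone_triangle k
  obtain ⟨φ, hφ₁, hφ₂⟩ := complete_distinguished_triangle_morphism _ _ hT' hT (t ≫ f₁) f₂
    hk.symm
  refine ⟨X₃, φ, Thick.cone hT' hX' hX₂, ?_⟩
  exact highIso_third hT' hT
    { hom₁ := t ≫ f₁, hom₂ := f₂, hom₃ := φ, comm₁ := hk.symm, comm₂ := hφ₁, comm₃ := hφ₂ }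
    (ht.comp hf₁) hf₂

/-- Closure under retracts, for objects with finite `π_i (M ⊗ Y)`. -/
lemma App.retract {Y Y' : C} (i : Y ⟶ Y') (r : Y' ⟶ Y) (h : i ≫ r = 𝟙 Y)
    (hY' : App Q Y') (hM : FinMod M Y') : App Q Y := by
  obtain ⟨X', Z', f', g', h', hT', h1', h3'⟩ := S.trunc.exists_cover 0 Y'
  obtain ⟨X, Z, f, g, hh, hT, h1, h3⟩ := S.trunc.exists_cover 0 Y
  have hf' : HighIso f' := highIso_of_boundedAbove hT' ⟨0, h3'⟩
  have hf : HighIso f := highIso_of_boundedAbove hT ⟨0, h3⟩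
  have hgX' : Good M X' := ⟨⟨0, h1'⟩, (trunc_small S hT' hM h1' h3').1⟩
  obtain ⟨X'', f'', hX'', hf''⟩ := hY'
  have hX' : Thick Q X' := thick_of_highIso S hX'' hgX' f'' hf'' f' hf'
  obtain ⟨i', hi'⟩ : ∃ i' : X ⟶ X', f ≫ i = i' ≫ f' :=
    Triangle.coyoneda_exact₂ _ hT' _ (S.trunc.hom_zero 0 _ _ h1 h3' _)
  obtain ⟨r', hr'⟩ : ∃ r' : X' ⟶ X, f' ≫ r = r' ≫ f :=
    Triangle.coyoneda_exact₂ _ hT _ (S.trunc.hom_zero 0 _ _ h1' h3 _)
  have h0 : (i' ≫ r' - 𝟙 X) ≫ f = 0 := by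
    rw [Preadditive.sub_comp, Category.assoc, ← hr', ← Category.assoc, ← hi', Category.assoc, h]
    simp
  obtain ⟨s, hs⟩ := Triangle.coyoneda_exact₂ _ (inv_rot_of_distTriang _ hT) (i' ≫ r' - 𝟙 X) h0
  have hs0 : s = 0 := S.trunc.hom_zero 0 X (Z⟦(-1 : ℤ)⟧) h1 ((h3.shift (-1)).mono (by omega)) s
  have h2 : i' ≫ r' - 𝟙 X = 0 := by
    rw [hs, hs0, zero_comp]
    rfl
  exact ⟨X, f, Thick.retract i' r' (sub_eq_zero.mp h2) hX', hf⟩

/-- If all objects of `Q'` have finite `π_i (M ⊗ Y)` and are approximated in high degrees by the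
thick subcategory generated by `Q`, then so do all objects of the thick subcategory generated
by `Q'`. -/
theorem app_of_thick {Q' : C → Prop}
    (hQ' : ∀ Y, Q' Y → App Q Y ∧ FinMod M Y) {Y : C} (hY : Thick Q' Y) :
    App Q Y ∧ FinMod M Y := by
  induction hY with
  | of h => exact hQ' _ h
  | shift a _ ih => exact ⟨ih.1.shift a, (stable_finMod M).shift _ a ih.2⟩
  | cone hT _ _ ih₁ ih₂ =>
    exact ⟨App.cone S hT ih₁.1 ih₂.1, (stable_finMod M).cone _ hT ih₁.2 ih₂.2⟩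
  | retract i r h _ ih =>
    exact ⟨App.retract S i r h ih.1 ih.2, (stable_finMod M).retract i r h ih.2⟩

/-- A good object which approximates an approximable object is in the thick subcategory. -/
theorem thick_of_app {Y : C} (hY : App Q Y) {W : C} (hW : Good M W) (g : W ⟶ Y)
    (hg : HighIso g) : Thick Q W := by
  obtain ⟨X, f, hX, hf⟩ := hY
  exact thick_of_highIso S hX hW f hf g hg

end

end Vale.Agent.P221
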