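import Vale.Agent.P261.H260.Main
import Mathlib.CategoryTheory.Monoidal.Braided.Basic

/-!
# P221: bounded objects, truncations, objects approximated in high degrees by a thick subcategory
-/

set_option linter.unusedSectionVars false

open CategoryTheory Limits Pretriangulated MonoidalCategory Vale.Agent.P261

universe v u

namespace Vale.Agent.P221

variable {C : Type u} [Category.{v} C] [Preadditive C] [HasZeroObject C] [HasShift C ℤ]
    [∀ n : ℤ, (shiftFunctor C n).Additive] [Pretriangulated C] [MonoidalCategory C]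

/-- `π_i X = [Σ^i S, X]` vanishes for all `i ≥ N`. -/
def VanishGE (N : ℤ) (X : C) : Prop := ∀ i, N ≤ i → ∀ f : (𝟙_ C)⟦i⟧ ⟶ X, f = 0

/-- `π_i X = [Σ^i S, X]` vanishes for all `i < N`. -/
def VanishLT (N : ℤ) (X : C) : Prop := ∀ i, i < N → ∀ f : (𝟙_ C)⟦i⟧ ⟶ X, f = 0

/-- `X` is bounded above: `π_i X = 0` for all large `i`. -/
def BoundedAbove (X : C) : Prop := ∃ N : ℤ, VanishGE N X

/-- `X` is bounded below: `π_i X = 0` for all small `i`. -/
def BoundedBelow (X : C) : Prop := ∃ N : ℤ, VanishLT N X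

/-- The homotopy `t`-structure: connective covers exist, and there are no nonzero maps from
objects with homotopy in degrees `≥ N` to objects with homotopy in degrees `< N`. -/
structure HasTruncations (C : Type u) [Category.{v} C] [Preadditive C] [HasZeroObject C]
    [HasShift C ℤ] [∀ n : ℤ, (shiftFunctor C n).Additive] [Pretriangulated C]
    [MonoidalCategory C] : Prop where
  hom_zero : ∀ (N : ℤ) (X Y : C), VanishLT N X → VanishGE N Y → ∀ f : X ⟶ Y, f = 0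
  exists_cover : ∀ (N : ℤ) (Y : C), ∃ (X Z : C) (f : X ⟶ Y) (g : Y ⟶ Z) (h : Z ⟶ X⟦(1 : ℤ)⟧),
    Triangle.mk f g h ∈ distTriang C ∧ VanishLT N X ∧ VanishGE N Z

/-- `π_i f` is bijective. -/
def PiBij (i : ℤ) {X Y : C} (f : X ⟶ Y) : Prop :=
  Function.Bijective (fun g : (𝟙_ C)⟦i⟧ ⟶ X => g ≫ f)

/-- `f` is an isomorphism on `π_i` for all large `i`. -/
def HighIso {X Y : C} (f : X ⟶ Y) : Prop := ∃ N : ℤ, ∀ i, N ≤ i → PiBij i f

section vanish

lemma hom_shift_one_zero {A X : C} {i : ℤ} (h : ∀ f : A⟦i⟧ ⟶ X, f = 0) :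
    ∀ f : A⟦i + 1⟧ ⟶ X⟦(1 : ℤ)⟧, f = 0 := by
  intro f
  obtain ⟨g, hg⟩ := (shiftFunctor C (1 : ℤ)).map_surjective
    ((shiftFunctorAdd C i 1).inv.app A ≫ f)
  rw [h g, Functor.map_zero] at hg
  rw [← cancel_epi ((shiftFunctorAdd C i 1).inv.app A), ← hg, comp_zero]

lemma hom_shift_zero {A X : C} {i : ℤ} (a : ℤ) (h : ∀ f : A⟦i⟧ ⟶ X, f = 0) :
    ∀ f : A⟦i + a⟧ ⟶ X⟦a⟧, f = 0 := by
  intro f
  obtain ⟨g, hg⟩ := (shiftFunctor C a).map_surjective
    ((shiftFunctorAdd C i a).inv.app A ≫ f)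
  rw [h g, Functor.map_zero] at hg
  rw [← cancel_epi ((shiftFunctorAdd C i a).inv.app A), ← hg, comp_zero]

lemma VanishGE.shift {N : ℤ} {X : C} (h : VanishGE N X) (a : ℤ) : VanishGE (N + a) (X⟦a⟧) := by
  intro i hi f
  have := hom_shift_zero (A := 𝟙_ C) (X := X) (i := i - a) a (h (i - a) (by omega))
  have h2 : i - a + a = i := by ring
  rw [h2] at this
  exact this f

lemma VanishLT.shift {N : ℤ} {X : C} (h : VanishLT N X) (a : ℤ) : VanishLT (N + a) (X⟦a⟧) := by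
  intro i hi f
  have := hom_shift_zero (A := 𝟙_ C) (X := X) (i := i - a) a (h (i - a) (by omega))
  have h2 : i - a + a = i := by ring
  rw [h2] at this
  exact this f

lemma VanishGE.mono {N N' : ℤ} {X : C} (h : VanishGE N X) (hN : N ≤ N') : VanishGE N' X :=
  fun i hi => h i (hN.trans hi)

lemma VanishLT.mono {N N' : ℤ} {X : C} (h : VanishLT N X) (hN : N' ≤ N) : VanishLT N' X :=
  fun i hi => h i (by omega)

lemma vanish_iso {A X Y : C} (e : X ≅ Y) (h : ∀ f : A ⟶ X, f = 0) : ∀ f : A ⟶ Y, f = 0 := by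
  intro f
  rw [← cancel_mono e.inv, h (f ≫ e.inv), zero_comp]

lemma VanishGE.of_iso {N : ℤ} {X Y : C} (h : VanishGE N X) (e : X ≅ Y) : VanishGE N Y :=
  fun i hi => vanish_iso e (h i hi)

lemma VanishLT.of_iso {N : ℤ} {X Y : C} (h : VanishLT N X) (e : X ≅ Y) : VanishLT N Y :=
  fun i hi => vanish_iso e (h i hi)

lemma vanish_obj₂ {A : C} {T : Triangle C} (hT : T ∈ distTriang C)
    (h₁ : ∀ f : A ⟶ T.obj₁, f = 0) (h₃ : ∀ f : A ⟶ T.obj₃, f = 0) :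
    ∀ f : A ⟶ T.obj₂, f = 0 := by
  intro f
  obtain ⟨g, hg⟩ := Triangle.coyoneda_exact₂ T hT f (h₃ _)
  rw [hg, h₁ g, zero_comp]

lemma BoundedAbove.shift {X : C} (h : BoundedAbove X) (a : ℤ) : BoundedAbove (X⟦a⟧) := by
  obtain ⟨N, hN⟩ := h
  exact ⟨_, hN.shift a⟩

lemma BoundedBelow.shift {X : C} (h : BoundedBelow X) (a : ℤ) : BoundedBelow (X⟦a⟧) := by
  obtain ⟨N, hN⟩ := h
  exact ⟨_, hN.shift a⟩

lemma BoundedAbove.of_iso {X Y : C} (h : BoundedAbove X) (e : X ≅ Y) : BoundedAbove Y := by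
  obtain ⟨N, hN⟩ := h
  exact ⟨N, hN.of_iso e⟩

lemma BoundedBelow.of_iso {X Y : C} (h : BoundedBelow X) (e : X ≅ Y) : BoundedBelow Y := by
  obtain ⟨N, hN⟩ := h
  exact ⟨N, hN.of_iso e⟩

lemma BoundedAbove.obj₂ {T : Triangle C} (hT : T ∈ distTriang C) (h₁ : BoundedAbove T.obj₁)
    (h₃ : BoundedAbove T.obj₃) : BoundedAbove T.obj₂ := by
  obtain ⟨N₁, h₁⟩ := h₁
  obtain ⟨N₃, h₃⟩ := h₃
  exact ⟨max N₁ N₃, fun i hi => vanish_obj₂ hT (h₁ i ((le_max_left _ _).trans hi))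
    (h₃ i ((le_max_right _ _).trans hi))⟩

lemma BoundedAbove.obj₃ {T : Triangle C} (hT : T ∈ distTriang C) (h₁ : BoundedAbove T.obj₁)
    (h₂ : BoundedAbove T.obj₂) : BoundedAbove T.obj₃ :=
  BoundedAbove.obj₂ (rot_of_distTriang T hT) h₂ (h₁.shift 1)

lemma BoundedAbove.obj₁ {T : Triangle C} (hT : T ∈ distTriang C) (h₂ : BoundedAbove T.obj₂)
    (h₃ : BoundedAbove T.obj₃) : BoundedAbove T.obj₁ :=
  BoundedAbove.obj₂ (inv_rot_of_distTriang T hT) (h₃.shift (-1)) h₂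

lemma BoundedBelow.obj₂ {T : Triangle C} (hT : T ∈ distTriang C) (h₁ : BoundedBelow T.obj₁)
    (h₃ : BoundedBelow T.obj₃) : BoundedBelow T.obj₂ := by
  obtain ⟨N₁, h₁⟩ := h₁
  obtain ⟨N₃, h₃⟩ := h₃
  exact ⟨min N₁ N₃, fun i hi => vanish_obj₂ hT (h₁ i (lt_of_lt_of_le hi (min_le_left _ _)))
    (h₃ i (lt_of_lt_of_le hi (min_le_right _ _)))⟩

lemma BoundedBelow.obj₃ {T : Triangle C} (hT : T ∈ distTriang C) (h₁ : BoundedBelow T.obj₁)
    (h₂ : BoundedBelow T.obj₂) : BoundedBelow T.obj₃ :=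
  BoundedBelow.obj₂ (rot_of_distTriang T hT) h₂ (h₁.shift 1)

lemma BoundedBelow.obj₁ {T : Triangle C} (hT : T ∈ distTriang C) (h₂ : BoundedBelow T.obj₂)
    (h₃ : BoundedBelow T.obj₃) : BoundedBelow T.obj₁ :=
  BoundedBelow.obj₂ (inv_rot_of_distTriang T hT) (h₃.shift (-1)) h₂

lemma boundedBelow_retract {X Y : C} (i : X ⟶ Y) (r : Y ⟶ X) (h : i ≫ r = 𝟙 X)
    (hY : BoundedBelow Y) : BoundedBelow X := by
  obtain ⟨N, hN⟩ := hY
  refine ⟨N, fun k hk f => ?_⟩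
  have h1 := hN k hk (f ≫ i)
  calc f = f ≫ i ≫ r := by rw [h, Category.comp_id]
    _ = 0 := by rw [← Category.assoc, h1, zero_comp]

lemma boundedAbove_retract {X Y : C} (i : X ⟶ Y) (r : Y ⟶ X) (h : i ≫ r = 𝟙 X)
    (hY : BoundedAbove Y) : BoundedAbove X := by
  obtain ⟨N, hN⟩ := hY
  refine ⟨N, fun k hk f => ?_⟩
  have h1 := hN k hk (f ≫ i)
  calc f = f ≫ i ≫ r := by rw [h, Category.comp_id]
    _ = 0 := by rw [← Category.assoc, h1, zero_comp]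

end vanish

section highIso

lemma piBij_of_vanish {T : Triangle C} (hT : T ∈ distTriang C) {i : ℤ}
    (h3 : ∀ f : (𝟙_ C)⟦i⟧ ⟶ T.obj₃, f = 0) (h3' : ∀ f : (𝟙_ C)⟦i + 1⟧ ⟶ T.obj₃, f = 0) :
    PiBij i T.mor₁ := by
  constructor
  · intro a b hab
    have h0 : (a - b) ≫ T.mor₁ = 0 := by
      rw [Preadditive.sub_comp]
      exact sub_eq_zero.mpr hab
    obtain ⟨g, hg⟩ := Triangle.coyoneda_exact₂ _ (inv_rot_of_distTriang T hT) (a - b) h0
    have hv : ∀ f : (𝟙_ C)⟦i⟧ ⟶ T.invRotate.obj₁, f = 0 := by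
      have := hom_shift_zero (A := 𝟙_ C) (X := T.obj₃) (i := i + 1) (-1) h3'
      have h2 : i + 1 + -1 = i := by ring
      rw [h2] at this
      exact this
    have : a - b = 0 := by
      rw [hg, hv g, zero_comp]
      rfl
    exact sub_eq_zero.mp this
  · intro c
    obtain ⟨g, hg⟩ := Triangle.coyoneda_exact₂ T hT c (h3 _)
    exact ⟨g, hg.symm⟩

lemma highIso_of_boundedAbove {T : Triangle C} (hT : T ∈ distTriang C)
    (h : BoundedAbove T.obj₃) : HighIso T.mor₁ := by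
  obtain ⟨N, hN⟩ := h
  exact ⟨N, fun i hi => piBij_of_vanish hT (hN i hi) (hN (i + 1) (by omega))⟩

lemma vanish_of_piBij {T : Triangle C} (hT : T ∈ distTriang C) {i : ℤ}
    (h1 : PiBij i T.mor₁) (h2 : PiBij (i - 1) T.mor₁) :
    ∀ f : (𝟙_ C)⟦i⟧ ⟶ T.obj₃, f = 0 := by
  intro f
  -- `f ≫ T.mor₃ : S⟦i⟧ ⟶ T.obj₁⟦1⟧` vanishes
  have h3 : f ≫ T.mor₃ = 0 := by
    obtain ⟨g, hg⟩ := (shiftFunctor C (1 : ℤ)).map_surjective
      ((shiftFunctorAdd' C (i - 1) 1 i (by ring)).inv.app (𝟙_ C) ≫ (f ≫ T.mor₃))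
    have h4 : g ≫ T.mor₁ = 0 := by
      apply (shiftFunctor C (1 : ℤ)).map_injective
      rw [Functor.map_comp, hg, Functor.map_zero, Category.assoc, Category.assoc,
        comp_distTriang_mor_zero₃₁ T hT, comp_zero, comp_zero]
    have h5 : g = 0 := h2.1 (by beta_reduce; rw [h4, zero_comp])
    rw [h5, Functor.map_zero] at hg
    rw [← cancel_epi ((shiftFunctorAdd' C (i - 1) 1 i (by ring)).inv.app (𝟙_ C)), ← hg,
      comp_zero]
  obtain ⟨g, hg⟩ := Triangle.coyoneda_exact₃ T hT f h3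
  obtain ⟨g', hg'⟩ := h1.2 g
  rw [hg, ← hg']
  beta_reduce
  rw [Category.assoc, comp_distTriang_mor_zero₁₂ T hT, comp_zero]

lemma boundedAbove_of_highIso {T : Triangle C} (hT : T ∈ distTriang C)
    (h : HighIso T.mor₁) : BoundedAbove T.obj₃ := by
  obtain ⟨N, hN⟩ := h
  exact ⟨N + 1, fun i hi => vanish_of_piBij hT (hN i (by omega)) (hN (i - 1) (by omega))⟩

lemma HighIso.comp {X Y Z : C} {f : X ⟶ Y} {g : Y ⟶ Z} (hf : HighIso f) (hg : HighIso g) :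
    HighIso (f ≫ g) := by
  obtain ⟨N₁, h₁⟩ := hf
  obtain ⟨N₂, h₂⟩ := hg
  refine ⟨max N₁ N₂, fun i hi => ?_⟩
  have := (h₂ i ((le_max_right _ _).trans hi)).comp (h₁ i ((le_max_left _ _).trans hi))
  have he : (fun a : (𝟙_ C)⟦i⟧ ⟶ X => a ≫ f ≫ g) =
      (fun a : (𝟙_ C)⟦i⟧ ⟶ Y => a ≫ g) ∘ (fun a : (𝟙_ C)⟦i⟧ ⟶ X => a ≫ f) := by
    funext a
    simp
  rw [PiBij, he]
  exact this

lemma HighIso.of_comp_right {X Y Z : C} {f : X ⟶ Y} {g : Y ⟶ Z} (hg : HighIso g)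
    (hfg : HighIso (f ≫ g)) : HighIso f := by
  obtain ⟨N₁, h₁⟩ := hg
  obtain ⟨N₂, h₂⟩ := hfg
  refine ⟨max N₁ N₂, fun i hi => ?_⟩
  have a := h₁ i ((le_max_left _ _).trans hi)
  have b := h₂ i ((le_max_right _ _).trans hi)
  constructor
  · intro x y hxy
    apply b.1
    beta_reduce at hxy ⊢
    rw [← Category.assoc, hxy, Category.assoc]
  · intro y
    obtain ⟨x, hx⟩ := b.2 (y ≫ g)
    refine ⟨x, a.1 ?_⟩
    beta_reduce at hx ⊢
    rw [Category.assoc, hx]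

lemma HighIso.of_isIso {X Y : C} (f : X ⟶ Y) [IsIso f] : HighIso f :=
  ⟨0, fun i _ => ⟨fun a b h => (cancel_mono f).mp h, fun c => ⟨c ≫ inv f, by simp⟩⟩⟩

end highIso

end Vale.Agent.P221
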