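import Vale.Agent.P221.H929.Torsion

/-!
# P221: the type of the obstruction
-/

set_option linter.unusedSectionVars false

open CategoryTheory Limits Pretriangulated MonoidalCategory Vale.Agent.P261

universe v u

namespace Vale.Agent.P221

variable {C : Type u} [Category.{v} C] [Preadditive C] [HasZeroObject C] [HasShift C ℤ]
    [∀ n : ℤ, (shiftFunctor C n).Additive] [Pretriangulated C] [MonoidalCategory C]

/-- Thick subcategory theorem: if `F'` has type at least the type of `F`, then `F'` lies in the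
thick subcategory generated by `F`. -/
def ThickSubcategoryTheorem (K : ℕ → C) : Prop :=
  ∀ F F' : C, FiniteSp F → FiniteSp F' → (∀ j, TypeGE K j F → TypeGE K j F') →
    Thick (fun W => W = F) F'

variable [BraidedCategory C] [TensorTriangulated C] {K : ℕ → C} {n : ℕ}

lemma thick_tensor_of_thick {Q : C → Prop} {X F F' : C} (hF' : Thick (fun W => W = F) F')
    (h : Thick Q (F ⊗ X)) : Thick Q (F' ⊗ X) := by
  have h1 : Thick (fun W => W = X ⊗ F) (X ⊗ F') :=
    thick_tensor (fun Y hY => by rw [hY]; exact Thick.of rfl) hF'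
  have h2 : Thick Q (X ⊗ F') := by
    refine thick_trans (fun W hW => ?_) h1
    rw [hW]
    exact thick_of_iso h (β_ X F)
  exact thick_of_iso h2 (β_ F' X)

lemma typeGE_zero (F : C) : TypeGE K 0 F := fun i hi => absurd hi (Nat.not_lt_zero i)

lemma thick_unit_tensor {Q : C → Prop} {X : C} : Thick Q (𝟙_ C ⊗ X) ↔ Thick Q X :=
  ⟨fun h => thick_of_iso h (λ_ X).symm, fun h => thick_of_iso h (λ_ X)⟩

/-- If all finite spectra of type at least `n` satisfy `F ⊗ X ∈ Thick Q`, then the finite spectra
with `F ⊗ X ∈ Thick Q` are exactly those of type at least `k`, for some `k ≤ n`. -/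
theorem exists_type (hTST : ThickSubcategoryTheorem K) {Q : C → Prop} {X : C}
    (h : ∀ F : C, FiniteSp F → TypeGE K n F → Thick Q (F ⊗ X)) :
    ∃ k ≤ n, (Thick Q X ↔ k = 0) ∧
      ∀ F : C, FiniteSp F → (Thick Q (F ⊗ X) ↔ TypeGE K k F) := by
  classical
  have hex : ∃ k, ∀ F : C, FiniteSp F → TypeGE K k F → Thick Q (F ⊗ X) := ⟨n, h⟩
  refine ⟨Nat.find hex, Nat.find_min' hex h, ⟨fun hX => ?_, fun h0 => ?_⟩,
    fun F hF => ⟨fun hFX => ?_, fun hk => Nat.find_spec hex F hF hk⟩⟩
  · exact Nat.le_zero.mp (Nat.find_min' hex (fun F hF _ =>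
      thick_tensor_of_thick hF (thick_unit_tensor.mpr hX)))
  · refine thick_unit_tensor.mp (Nat.find_spec hex (𝟙_ C) (Thick.of rfl) ?_)
    rw [h0]
    exact typeGE_zero _
  by_contra hnot
  have hex2 : ∃ j, ¬ TypeGE K j F := ⟨_, hnot⟩
  obtain ⟨m, hm⟩ : ∃ m, Nat.find hex2 = m + 1 := by
    refine ⟨Nat.find hex2 - 1, ?_⟩
    have h0 : Nat.find hex2 ≠ 0 := by
      intro h0
      have := Nat.find_spec hex2
      rw [h0] at this
      exact this (fun i hi => absurd hi (Nat.not_lt_zero i))
    omega
  have hmF : TypeGE K m F := by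
    have := Nat.find_min hex2 (m := m) (by omega)
    exact not_not.mp this
  have hmF' : ¬ TypeGE K (m + 1) F := by
    have := Nat.find_spec hex2
    rwa [hm] at this
  have hmk : m < Nat.find hex := by
    by_contra hle
    exact hnot (hmF.mono (not_lt.mp hle))
  refine Nat.find_min hex hmk (fun F' hF' hmF'2 => ?_)
  refine thick_tensor_of_thick (hTST F F' hF hF' (fun j hj => ?_)) hFX
  have hjm : j ≤ m := by
    by_contra hlt
    exact hmF' (hj.mono (by omega))
  exact hmF'2.mono hjm

end Vale.Agent.P221
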