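import Vale.Agent.P221.H929.KX

/-!
# P221: the `L_n^f`-local form of the question
-/

set_option linter.unusedSectionVars false

open CategoryTheory Limits Pretriangulated MonoidalCategory Vale.Agent.P261

universe v u

namespace Vale.Agent.P221

variable {C : Type u} [Category.{v} C] [Preadditive C] [HasZeroObject C] [HasShift C ℤ]
    [∀ n : ℤ, (shiftFunctor C n).Additive] [Pretriangulated C] [MonoidalCategory C]
    [BraidedCategory C] [TensorTriangulated C] {K : ℕ → C} {n : ℕ}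

/-- `Y` is `L_n^f`-local: `V ⊗ Y = 0` for all finite `V` of type at least `n + 1`. -/
def FLocal (K : ℕ → C) (n : ℕ) (Y : C) : Prop :=
  ∀ V : C, FiniteSp V → TypeGE K (n + 1) V → IsZero (V ⊗ Y)

lemma piFinite_of_isZero {X : C} (h : IsZero X) : PiFinite X := fun i =>
  have : Subsingleton ((𝟙_ C)⟦i⟧ ⟶ X) := ⟨fun a b => h.eq_of_tgt a b⟩
  Finite.of_subsingleton

/-- Upward induction: if `π_* (F' ⊗ X)` is finite in each degree, `F'` the cofibre of a self map of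
positive degree of `F`, and `F ⊗ X` is bounded below, then `π_* (F ⊗ X)` is finite in each
degree. -/
lemma piFinite_up {X F F' : C} {d : ℤ} (hd : 0 < d) {v : F⟦d⟧ ⟶ F} {g : F ⟶ F'}
    {e : F' ⟶ (F⟦d⟧)⟦(1 : ℤ)⟧} (hT : Triangle.mk v g e ∈ distTriang C)
    (hF' : PiFinite (F' ⊗ X)) (hb : BoundedBelow (F ⊗ X)) : PiFinite (F ⊗ X) := by
  have hfin' : ∀ i : ℤ, Finite ((𝟙_ C)⟦i⟧ ⟶ X ⊗ F') := fun i =>
    finite_of_iso (β_ F' X) (hF' i)
  obtain ⟨N, hN⟩ := hb.of_iso (β_ F X)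
  have hT' := TensorTriangulated.distinguished X _ hT
  obtain ⟨ε⟩ := nonempty_tensor_shift X F d
  suffices h : ∀ (k : ℕ) (i : ℤ), i < N + k * d → Finite ((𝟙_ C)⟦i⟧ ⟶ X ⊗ F) by
    intro i
    obtain ⟨k, hk⟩ : ∃ k : ℕ, i < N + k * d := by
      refine ⟨(i - N).toNat + 1, ?_⟩
      have h1 : i - N ≤ ((i - N).toNat : ℤ) := Int.self_le_toNat _
      push_cast
      nlinarith
    exact finite_of_iso (β_ X F) (h k i hk)
  intro k
  induction k with
  | zero =>
    intro i hi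
    have h0 := hN i (by simpa using hi)
    have hs : Subsingleton ((𝟙_ C)⟦i⟧ ⟶ X ⊗ F) := ⟨fun a b => by rw [h0 a, h0 b]⟩
    exact Finite.of_subsingleton
  | succ k ih =>
    intro i hi
    have h1 : Finite ((𝟙_ C)⟦i⟧ ⟶ X ⊗ (F⟦d⟧)) := by
      have h2 := finite_shift (A := 𝟙_ C) (X := X ⊗ F) (i := i - d) d
        (ih (i - d) (by push_cast at hi; linarith))
      have h3 : i - d + d = i := by ring
      rw [h3] at h2
      exact finite_of_iso ε.symm h2
    exact isSmallness_finite.of_exact h1 (hfin' i) (fun f => f ≫ (X ◁ v))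
      (AddMonoidHom.mk' (fun f : (𝟙_ C)⟦i⟧ ⟶ X ⊗ F => f ≫ (X ◁ g)) (fun _ _ => by simp))
      (fun f hf => by
        obtain ⟨g', hg'⟩ := Triangle.coyoneda_exact₂ _ hT' f hf
        exact ⟨g', hg'.symm⟩)

/-- Downward induction: if `π_* (F' ⊗ Y)` is finite in each degree, `F'` the cofibre of a self map
of positive degree of `F`, and `π_i (F ⊗ Y)` is finite for large `i`, then `π_i (F ⊗ Y)` is finite
for all `i`. -/
lemma piFinite_down {Y F F' : C} {d : ℤ} (hd : 0 < d) {v : F⟦d⟧ ⟶ F} {g : F ⟶ F'}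
    {e : F' ⟶ (F⟦d⟧)⟦(1 : ℤ)⟧} (hT : Triangle.mk v g e ∈ distTriang C)
    (hF' : PiFinite (F' ⊗ Y)) {N : ℤ}
    (hb : ∀ i : ℤ, N ≤ i → Finite ((𝟙_ C)⟦i⟧ ⟶ F ⊗ Y)) : PiFinite (F ⊗ Y) := by
  have hfin' : PiFinite (Y ⊗ F') := fun i => finite_of_iso (β_ F' Y) (hF' i)
  have hT' := TensorTriangulated.distinguished Y _ hT
  obtain ⟨ε⟩ := nonempty_tensor_shift Y F d
  suffices h : ∀ (k : ℕ) (i : ℤ), N - k * d ≤ i → Finite ((𝟙_ C)⟦i⟧ ⟶ Y ⊗ F) by
    intro i
    obtain ⟨k, hk⟩ : ∃ k : ℕ, N - k * d ≤ i := by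
      refine ⟨(N - i).toNat, ?_⟩
      have h1 : N - i ≤ ((N - i).toNat : ℤ) := Int.self_le_toNat _
      have h2 : (0 : ℤ) ≤ ((N - i).toNat : ℤ) := Int.natCast_nonneg _
      nlinarith
    exact finite_of_iso (β_ Y F) (h k i hk)
  intro k
  induction k with
  | zero => intro i hi; exact finite_of_iso (β_ F Y) (hb i (by simpa using hi))
  | succ k ih =>
    intro i hi
    have h1 : Finite ((𝟙_ C)⟦i + d⟧ ⟶ Y ⊗ F) := ih (i + d) (by push_cast at hi; linarith)
    have hinv := inv_rot_of_distTriang _ hT'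
    have h2 : Finite ((𝟙_ C)⟦i + d⟧ ⟶ (Y ⊗ F')⟦(-1 : ℤ)⟧) :=
      stable_piFinite.shift _ (-1) hfin' (i + d)
    have h3 : Finite ((𝟙_ C)⟦i + d⟧ ⟶ Y ⊗ (F⟦d⟧)) :=
      isSmallness_finite.of_exact h2 h1
        (fun f => f ≫ (Triangle.mk (Y ◁ v) (Y ◁ g)
          ((Y ◁ e) ≫ (TensorTriangulated.shiftIso Y (F⟦d⟧)).hom)).invRotate.mor₁)
        (AddMonoidHom.mk' (fun f : (𝟙_ C)⟦i + d⟧ ⟶ Y ⊗ (F⟦d⟧) => f ≫ (Y ◁ v))
          (fun _ _ => by simp))
        (fun f hf => by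
          obtain ⟨g', hg'⟩ := Triangle.coyoneda_exact₂ _ hinv f hf
          exact ⟨g', hg'.symm⟩)
    exact finite_unshift d (finite_of_iso ε h3)

/-- fp-spectra have finite `π_i (F ⊗ X)` for all finite `F` of type at least one. -/
lemma FP.piFinite (hper : ∀ j, 1 ≤ j → Periodicity K j) {X : C} (hX : FP K n X) :
    ∀ F : C, FiniteSp F → TypeGE K 1 F → PiFinite (F ⊗ X) := by
  suffices h : ∀ m, m ≤ n → ∀ F : C, FiniteSp F → TypeGE K (n + 1 - m) F → PiFinite (F ⊗ X) by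
    intro F hF hF1
    exact h n le_rfl F hF (by simpa using hF1)
  intro m
  induction m with
  | zero => intro _ F hF hF1; exact (hX.2 F hF hF1).2.2
  | succ m ih =>
    intro hm F hF hF1
    obtain ⟨d, hd, v, F', g, e, hT, hF'⟩ := hper (n + 1 - (m + 1)) (by omega) F hF hF1
    have h1 : n + 1 - (m + 1) + 1 = n + 1 - m := by omega
    rw [h1] at hF'
    exact piFinite_up hd hT (ih (by omega) F' (FiniteSp.obj₃ hT hF) hF')
      (boundedBelow_tensor hF hX.1)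

lemma HighIso.tensor_finite {X Y F : C} (hF : FiniteSp F) {f : X ⟶ Y} (hf : HighIso f) :
    HighIso (F ◁ f) := by
  obtain ⟨Z, q, r, hZ⟩ := distinguished_cocone_triangle f
  have h1 := boundedAbove_of_highIso hZ hf
  exact highIso_of_boundedAbove (TensorTriangulated.distinguished F _ hZ)
    (boundedAbove_tensor hF h1)

/-- The same finiteness for the `L_n^f`-localization of an fp-spectrum of fp-type at most `n`. -/
lemma FP.piFinite_local (hper : ∀ j, 1 ≤ j → Periodicity K j) {X Y : C} (hX : FP K n X)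
    {f : X ⟶ Y} (hf : HighIso f) (hY : FLocal K n Y) :
    ∀ F : C, FiniteSp F → TypeGE K 1 F → PiFinite (F ⊗ Y) := by
  suffices h : ∀ m, m ≤ n → ∀ F : C, FiniteSp F → TypeGE K (n + 1 - m) F → PiFinite (F ⊗ Y) by
    intro F hF hF1
    exact h n le_rfl F hF (by simpa using hF1)
  intro m
  induction m with
  | zero => intro _ F hF hF1; exact piFinite_of_isZero (hY F hF hF1)
  | succ m ih =>
    intro hm F hF hF1
    obtain ⟨d, hd, v, F', g, e, hT, hF'⟩ := hper (n + 1 - (m + 1)) (by omega) F hF hF1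
    have h1 : n + 1 - (m + 1) + 1 = n + 1 - m := by omega
    rw [h1] at hF'
    obtain ⟨N, hN⟩ := hf.tensor_finite hF
    exact piFinite_down hd hT (ih (by omega) F' (FiniteSp.obj₃ hT hF) hF') (N := N)
      (fun i hi => isSmallness_finite.of_surjective
        (FP.piFinite hper hX F hF (hF1.mono (by omega)) i) (fun g => g ≫ (F ◁ f)) (hN i hi).2)

lemma stable_FLocal (K : ℕ → C) (n : ℕ) : Stable (FLocal K n) where
  shift X a h := fun V hV hVn => isZero_tensor_shift (h V hV hVn) a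
  cone T hT h₁ h₂ := fun V hV hVn => by
    exact Triangle.isZero₃_of_isZero₁₂ _ (TensorTriangulated.distinguished V _ hT)
      (h₁ V hV hVn) (h₂ V hV hVn)
  retract i r hi hY := fun V hV hVn => by
    have h1 := hY V hV hVn
    rw [IsZero.iff_id_eq_zero]
    calc 𝟙 _ = (V ◁ i) ≫ (V ◁ r) := by
          rw [← MonoidalCategory.whiskerLeft_comp, hi, MonoidalCategory.whiskerLeft_id]
      _ = 0 := by rw [h1.eq_of_tgt (V ◁ i) 0, zero_comp]

lemma FP.finMod (hper : ∀ j, 1 ≤ j → Periodicity K j) {M : C} (hM : FiniteSp M)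
    (hM1 : TypeGE K 1 M) {X : C} (hX : FP K n X) : FinMod M X :=
  FP.piFinite hper hX M hM hM1

/-- bounded above objects are `L_n^f`-acyclic -/
def BoundedAcyclic (K : ℕ → C) (n : ℕ) : Prop :=
  ∀ W Y : C, BoundedAbove W → FLocal K n Y → ∀ f : W ⟶ Y, f = 0

lemma exists_ext (hac : BoundedAcyclic K n) {X Y Y' : C} {f : X ⟶ Y} (hf : HighIso f)
    (hY' : FLocal K n Y') (g : X ⟶ Y') : ∃ h : Y ⟶ Y', f ≫ h = g := by
  obtain ⟨Z, q, r, hZ⟩ := distinguished_cocone_triangle f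
  have h1 := boundedAbove_of_highIso hZ hf
  obtain ⟨h, hh⟩ := Triangle.yoneda_exact₂ _ (inv_rot_of_distTriang _ hZ) g
    (hac _ _ (BoundedAbove.shift h1 (-1)) hY' _)
  exact ⟨h, hh.symm⟩

lemma ext_unique (hac : BoundedAcyclic K n) {X Y Y' : C} {f : X ⟶ Y} (hf : HighIso f)
    (hY' : FLocal K n Y') {h h' : Y ⟶ Y'} (hh : f ≫ h = f ≫ h') : h = h' := by
  obtain ⟨Z, q, r, hZ⟩ := distinguished_cocone_triangle f
  have h1 := boundedAbove_of_highIso hZ hf
  obtain ⟨k, hk⟩ := Triangle.yoneda_exact₂ _ hZ (h - h')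
    (by show f ≫ (h - h') = 0; rw [Preadditive.comp_sub, hh, sub_self])
  have hk0 : k = 0 := hac _ _ h1 hY' k
  rw [hk0, comp_zero] at hk
  exact sub_eq_zero.mp hk

lemma nonempty_iso_of_local (hac : BoundedAcyclic K n) {X Y Y' : C} {f : X ⟶ Y} {f' : X ⟶ Y'}
    (hf : HighIso f) (hf' : HighIso f') (hY : FLocal K n Y) (hY' : FLocal K n Y') :
    Nonempty (Y ≅ Y') := by
  obtain ⟨h, hh⟩ := exists_ext hac hf hY' f'
  obtain ⟨h', hh'⟩ := exists_ext hac hf' hY f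
  refine ⟨⟨h, h', ext_unique hac hf hY ?_, ext_unique hac hf' hY' ?_⟩⟩
  · rw [← Category.assoc, hh, hh', Category.comp_id]
  · rw [← Category.assoc, hh', hh, Category.comp_id]

/-- `L_n^f` maps `Thick(B)` into `Thick(L_n^f B)`. -/
theorem thick_local (hac : BoundedAcyclic K n)
    (hL : ∀ X : C, FP K n X → ∃ (Y : C) (f : X ⟶ Y), FLocal K n Y ∧ HighIso f)
    {B LB : C} (hB : FP K n B) {ℓ : B ⟶ LB} (hℓ : HighIso ℓ) (hLB : FLocal K n LB)
    {X : C} (hX : Thick (fun W => W = B) X) :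
    ∀ (Y : C) (f : X ⟶ Y), FLocal K n Y → HighIso f → Thick (fun W => W = LB) Y := by
  have hfp : ∀ {X : C}, Thick (fun W => W = B) X → FP K n X := fun h =>
    (stable_FP K n).of_thick (fun W hW => by rw [hW]; exact hB) h
  induction hX with
  | of h =>
    subst h
    intro Y f hY hf
    obtain ⟨e⟩ := nonempty_iso_of_local hac hf hℓ hY hLB
    exact thick_of_iso (Thick.of rfl) e
  | shift a hX ih =>
    intro Y f hY hf
    obtain ⟨Y₀, f₀, hY₀, hf₀⟩ := hL _ (hfp hX)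
    obtain ⟨e⟩ := nonempty_iso_of_local hac hf (hf₀.shift a) hY ((stable_FLocal K n).shift _ a hY₀)
    exact thick_of_iso (Thick.shift a (ih Y₀ f₀ hY₀ hf₀)) e
  | @cone T hT hX₁ hX₂ ih₁ ih₂ =>
    intro Y f hY hf
    obtain ⟨Y₁, f₁, hY₁, hf₁⟩ := hL _ (hfp hX₁)
    obtain ⟨Y₂, f₂, hY₂, hf₂⟩ := hL _ (hfp hX₂)
    obtain ⟨g, hg⟩ := exists_ext hac hf₁ hY₂ (T.mor₁ ≫ f₂)
    obtain ⟨Y₃, a, b, hT'⟩ := distinguished_cocone_triangle g
    obtain ⟨φ, hφ₁, hφ₂⟩ := complete_distinguished_triangle_morphism _ _ hT hT' f₁ f₂ hg.symm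
    have hφ : HighIso φ := highIso_third hT hT'
      { hom₁ := f₁, hom₂ := f₂, hom₃ := φ, comm₁ := hg.symm, comm₂ := hφ₁, comm₃ := hφ₂ } hf₁ hf₂
    obtain ⟨e⟩ := nonempty_iso_of_local hac hf hφ hY ((stable_FLocal K n).cone _ hT' hY₁ hY₂)
    exact thick_of_iso (Thick.cone hT' (ih₁ Y₁ f₁ hY₁ hf₁) (ih₂ Y₂ f₂ hY₂ hf₂)) e
  | @retract X X' i r hi hX' ih =>
    intro Y f hY hf
    obtain ⟨Y', f', hY', hf'⟩ := hL _ (hfp hX')
    obtain ⟨i', hi'⟩ := exists_ext hac hf hY' (i ≫ f')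
    obtain ⟨r', hr'⟩ := exists_ext hac hf' hY (r ≫ f)
    refine Thick.retract i' r' (ext_unique hac hf hY ?_) (ih Y' f' hY' hf')
    rw [← Category.assoc, hi', Category.assoc, hr', ← Category.assoc, hi, Category.id_comp,
      Category.comp_id]

/-- Every `L_n^f`-local `Y` with finite groups `π_i (M ⊗ Y)` is the localization of an
fp-spectrum. -/
theorem exists_fp {M B : C} (S : Setup M (fun W => W = B))
    (hTST : ThickSubcategoryTheorem K) (hM : FiniteSp M) (hM2 : ¬ TypeGE K 2 M)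
    {Y : C} (hY : FLocal K n Y) (hYM : FinMod M Y) :
    ∃ (X : C) (f : X ⟶ Y), FP K n X ∧ HighIso f := by
  obtain ⟨X, Z, f, g, h, hT, h1, h3⟩ := S.trunc.exists_cover 0 Y
  have hXM := (trunc_small S hT hYM h1 h3).1
  refine ⟨X, f, ⟨⟨0, h1⟩, fun V hV hVn => ⟨boundedBelow_tensor hV ⟨0, h1⟩, ?_, ?_⟩⟩,
    highIso_of_boundedAbove hT ⟨0, h3⟩⟩
  · refine BoundedAbove.obj₁ (TensorTriangulated.distinguished V _ hT) ?_
      (boundedAbove_tensor hV ⟨0, h3⟩)
    exact ⟨0, fun i _ k => (hY V hV hVn).eq_of_tgt _ _⟩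
  · have hVM : Thick (fun W => W = M) V := hTST M V hM hV (fun j hj => hVn.mono (by
      have : j < 2 := by
        by_contra hlt
        exact hM2 (hj.mono (by omega))
      omega))
    have h4 : PiFinite (X ⊗ V) :=
      (stable_piFinite.comap X).of_thick (Q := fun W => W = M)
        (fun W hW => by rw [hW]; exact stable_piFinite.of_iso (β_ M X) hXM) hVM
    exact stable_piFinite.of_iso (β_ X V) h4

/-- An fp-spectrum of fp-type at most `n` lies in `Thick(B)` if and only if its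
`L_n^f`-localization lies in `Thick(L_n^f B)`. -/
theorem thick_iff_local {M B LB : C} (S : Setup M (fun W => W = B))
    (hper : ∀ j, 1 ≤ j → Periodicity K j) (hM : FiniteSp M) (hM1 : TypeGE K 1 M)
    (hac : BoundedAcyclic K n)
    (hL : ∀ X : C, FP K n X → ∃ (Y : C) (f : X ⟶ Y), FLocal K n Y ∧ HighIso f)
    (hB : FP K n B) {ℓ : B ⟶ LB} (hℓ : HighIso ℓ) (hLB : FLocal K n LB)
    {X Y : C} (hX : FP K n X) {f : X ⟶ Y} (hf : HighIso f) (hY : FLocal K n Y) :
    Thick (fun W => W = B) X ↔ Thick (fun W => W = LB) Y := by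
  refine ⟨fun h => thick_local hac hL hB hℓ hLB h Y f hY hf, fun h => ?_⟩
  have happ := (app_of_thick S (Q' := fun W => W = LB) (fun W hW => by
    rw [hW]
    exact ⟨⟨B, ℓ, Thick.of rfl, hℓ⟩, FP.piFinite_local hper hB hℓ hLB M hM hM1⟩) h).1
  exact thick_of_app S happ ⟨hX.1, hX.finMod hper hM hM1⟩ f hf

end Vale.Agent.P221
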