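import Vale.Agent.P221.H929.Local

/-!
# P221: the Hahn-Wilson question, up to its torsion part, and its `L_n^f`-local form

`C` plays the role of the category of `p`-complete spectra, `𝟙_ C` that of the `p`-complete sphere,
`M` that of the mod `p` Moore spectrum, `B` that of a standard form of `BP⟨n⟩`, and `K i` (`i ≥ 1`)
that of the Morava `K`-theories.  `Facts` lists the published facts which are used.
-/

set_option linter.unusedSectionVars false

open CategoryTheory Limits Pretriangulated MonoidalCategory Vale.Agent.P261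

universe v u

namespace Vale.Agent.P221

variable {C : Type u} [Category.{v} C] [Preadditive C] [HasZeroObject C] [HasShift C ℤ]
    [∀ n : ℤ, (shiftFunctor C n).Additive] [Pretriangulated C] [MonoidalCategory C]
    [BraidedCategory C] [TensorTriangulated C]

/-- The published facts on `p`-complete spectra, at height `n`. -/
structure Facts (K : ℕ → C) (n : ℕ) (M B : C) : Prop where
  /-- the homotopy `t`-structure -/
  trunc : HasTruncations C
  /-- the Moore spectrum has a cell in dimension `0` and one in dimension `1` -/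
  moore : ∃ (c : 𝟙_ C ⟶ 𝟙_ C) (a : 𝟙_ C ⟶ M) (b : M ⟶ (𝟙_ C)⟦(1 : ℤ)⟧),
    Triangle.mk c a b ∈ distTriang C
  /-- the Moore spectrum has type one -/
  moore_type : TypeGE K 1 M ∧ ¬ TypeGE K 2 M
  /-- a bounded spectrum with finitely generated homotopy groups is in `Thick(B)` -/
  bounded : ∀ X : C, Good M X → BoundedAbove X → Thick (fun W => W = B) X
  /-- `BP⟨n⟩` is an fp-spectrum of fp-type at most `n` -/
  fp : FP K n B
  /-- Hopkins-Smith: thick subcategories of finite spectra -/
  thick : ThickSubcategoryTheorem K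
  /-- Hopkins-Smith: periodicity -/
  periodicity : ∀ j, 1 ≤ j → Periodicity K j
  /-- bounded above spectra have no maps to `L_n^f`-local spectra -/
  acyclic : BoundedAcyclic K n
  /-- Mahowald-Rezk: the map from an fp-spectrum of fp-type at most `n` to its
  `L_n^f`-localization is an isomorphism in high degrees -/
  localization : ∀ X : C, FP K n X → ∃ (Y : C) (f : X ⟶ Y), FLocal K n Y ∧ HighIso f
  /-- Bousfield: `K(n)`-localizations exist -/
  localizationK : ∀ X : C, ∃ (Y : C) (f : X ⟶ Y), IsBousfieldLocalization (fun _ : Unit => K n) f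
  /-- Mahowald-Rezk: after tensoring with a finite spectrum of type at least `n` the map from an
  fp-spectrum of fp-type at most `n` to its `K(n)`-localization is an isomorphism in high degrees -/
  localizationK_high : ∀ {X Y : C} (f : X ⟶ Y), FP K n X →
    IsBousfieldLocalization (fun _ : Unit => K n) f →
    ∀ F : C, FiniteSp F → TypeGE K n F → HighIso (F ◁ f)
  /-- Lee-Pstragowski: locally fp-spectra are in the thick subcategory generated by
  `L_{K(n)} BP⟨n⟩` -/
  locallyFP : ∀ (LB : C) (ℓ : B ⟶ LB), IsBousfieldLocalization (fun _ : Unit => K n) ℓ →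
    ∀ Y : C, IsLocal (fun _ : Unit => K n) Y →
      (∀ F : C, FiniteSp F → TypeGE K n F → PiFinite (F ⊗ Y)) → Thick (fun W => W = LB) Y

variable {K : ℕ → C} {n : ℕ} {M B : C}

lemma Facts.finite_moore (h : Facts K n M B) : FiniteSp M := by
  obtain ⟨c, a, b, hM⟩ := h.moore
  exact Thick.cone hM (Thick.of rfl) (Thick.of rfl)

lemma Facts.setup (h : Facts K n M B) : Setup M (fun W => W = B) where
  trunc := h.trunc
  moore := h.moore
  good X hX := by
    rw [hX]
    exact ⟨h.fp.1, h.fp.finMod h.periodicity h.finite_moore h.moore_type.1⟩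
  bounded := h.bounded

theorem Facts.thick_subset (h : Facts K n M B) {X : C} (hX : Thick (fun W => W = B) X) :
    FP K n X := (stable_FP K n).of_thick (fun W hW => by rw [hW]; exact h.fp) hX

/-- The torsion part of the question. -/
theorem Facts.torsion (h : Facts K n M B) (hn : 1 ≤ n) {X F : C} (hX : FP K n X)
    (hF : FiniteSp F) (hFn : TypeGE K n F) : Thick (fun W => W = B) (F ⊗ X) := by
  obtain ⟨LB, ℓ, hℓ⟩ := h.localizationK B
  exact thick_tensor_of_type h.setup hn (h.periodicity n hn) h.localizationK
    h.localizationK_high h.fp ℓ hℓ (h.locallyFP LB ℓ hℓ) hX hF hFn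

/-- The type of the obstruction. -/
theorem Facts.exists_type (h : Facts K n M B) (hn : 1 ≤ n) {X : C} (hX : FP K n X) :
    ∃ k ≤ n, (Thick (fun W => W = B) X ↔ k = 0) ∧
      ∀ F : C, FiniteSp F → (Thick (fun W => W = B) (F ⊗ X) ↔ TypeGE K k F) :=
  P221.exists_type h.thick (fun _ hF hFn => h.torsion hn hX hF hFn)

/-- `X ∈ Thick(B)` if and only if `L_n^f X ∈ Thick(L_n^f B)`. -/
theorem Facts.thick_iff (h : Facts K n M B) {X Y LB : C} (hX : FP K n X) {f : X ⟶ Y}
    (hf : HighIso f) (hY : FLocal K n Y) {ℓ : B ⟶ LB} (hℓ : HighIso ℓ) (hLB : FLocal K n LB) :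
    Thick (fun W => W = B) X ↔ Thick (fun W => W = LB) Y :=
  thick_iff_local h.setup h.periodicity h.finite_moore h.moore_type.1 h.acyclic h.localization
    h.fp hℓ hLB hX hf hY

/-- The question is equivalent to its `L_n^f`-local form. -/
theorem Facts.question_iff (h : Facts K n M B) {LB : C} {ℓ : B ⟶ LB} (hℓ : HighIso ℓ)
    (hLB : FLocal K n LB) :
    (∀ X : C, FP K n X ↔ Thick (fun W => W = B) X) ↔
      (∀ Y : C, FLocal K n Y ∧ FinMod M Y ↔ Thick (fun W => W = LB) Y) := by
  have hLBM : FinMod M LB := FP.piFinite_local h.periodicity h.fp hℓ hLB M h.finite_moore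
    h.moore_type.1
  constructor
  · intro hq Y
    refine ⟨fun hY => ?_, fun hY => ?_⟩
    · obtain ⟨X, f, hX, hf⟩ := exists_fp h.setup h.thick h.finite_moore h.moore_type.2 hY.1 hY.2
      exact (h.thick_iff hX hf hY.1 hℓ hLB).1 ((hq X).1 hX)
    · exact ((stable_FLocal K n).and (stable_finMod M)).of_thick
        (fun W hW => by rw [hW]; exact ⟨hLB, hLBM⟩) hY
  · intro hq X
    refine ⟨fun hX => ?_, h.thick_subset⟩
    obtain ⟨Y, f, hY, hf⟩ := h.localization X hX
    refine (h.thick_iff hX hf hY hℓ hLB).2 ((hq Y).1 ⟨hY, ?_⟩)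
    exact FP.piFinite_local h.periodicity hX hf hY M h.finite_moore h.moore_type.1

end Vale.Agent.P221
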