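import Vale.Agent.P221.H929.Basic

/-!
# P221: properties of objects which are stable under shifts, cones, retracts and tensor products
-/

set_option linter.unusedSectionVars false

open CategoryTheory Limits Pretriangulated MonoidalCategory Vale.Agent.P261

universe v u

namespace Vale.Agent.P221

variable {C : Type u} [Category.{v} C] [Preadditive C] [HasZeroObject C] [HasShift C ℤ]
    [∀ n : ℤ, (shiftFunctor C n).Additive] [Pretriangulated C] [MonoidalCategory C]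

lemma thick_of_iso {Q : C → Prop} {A B : C} (h : Thick Q A) (e : B ≅ A) : Thick Q B :=
  Thick.retract e.hom e.inv e.hom_inv_id h

lemma thick_obj₂ {Q : C → Prop} {T : Triangle C} (hT : T ∈ distTriang C) (h₁ : Thick Q T.obj₁)
    (h₃ : Thick Q T.obj₃) : Thick Q T.obj₂ :=
  Thick.cone (inv_rot_of_distTriang T hT) (Thick.shift (-1) h₃) h₁

lemma thick_obj₁ {Q : C → Prop} {T : Triangle C} (hT : T ∈ distTriang C) (h₂ : Thick Q T.obj₂)
    (h₃ : Thick Q T.obj₃) : Thick Q T.obj₁ :=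
  thick_obj₂ (inv_rot_of_distTriang T hT) (Thick.shift (-1) h₃) h₂

lemma thick_trans {Q Q' : C → Prop} (hQ : ∀ X, Q X → Thick Q' X) {X : C} (h : Thick Q X) :
    Thick Q' X := by
  induction h with
  | of h => exact hQ _ h
  | shift a _ ih => exact Thick.shift a ih
  | cone hT _ _ ih₁ ih₂ => exact Thick.cone hT ih₁ ih₂
  | retract i r hi _ ih => exact Thick.retract i r hi ih

/-- A property of objects which is stable under shifts, cones and retracts. -/
structure Stable (P : C → Prop) : Prop where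
  shift : ∀ (X : C) (a : ℤ), P X → P (X⟦a⟧)
  cone : ∀ T : Triangle C, T ∈ distTriang C → P T.obj₁ → P T.obj₂ → P T.obj₃
  retract : ∀ {X Y : C} (i : X ⟶ Y) (r : Y ⟶ X), i ≫ r = 𝟙 X → P Y → P X

lemma Stable.of_iso {P : C → Prop} (h : Stable P) {X Y : C} (e : X ≅ Y) (hX : P X) : P Y :=
  h.retract e.inv e.hom e.inv_hom_id hX

lemma Stable.obj₂ {P : C → Prop} (h : Stable P) {T : Triangle C} (hT : T ∈ distTriang C)
    (h₁ : P T.obj₁) (h₃ : P T.obj₃) : P T.obj₂ :=
  h.cone _ (inv_rot_of_distTriang T hT) (h.shift _ (-1) h₃) h₁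

lemma Stable.obj₁ {P : C → Prop} (h : Stable P) {T : Triangle C} (hT : T ∈ distTriang C)
    (h₂ : P T.obj₂) (h₃ : P T.obj₃) : P T.obj₁ :=
  h.obj₂ (inv_rot_of_distTriang T hT) (h.shift _ (-1) h₃) h₂

lemma Stable.of_thick {P Q : C → Prop} (h : Stable P) (hQ : ∀ X, Q X → P X) {X : C}
    (hX : Thick Q X) : P X := by
  induction hX with
  | of hX => exact hQ _ hX
  | shift a _ ih => exact h.shift _ a ih
  | cone hT _ _ ih₁ ih₂ => exact h.cone _ hT ih₁ ih₂
  | retract i r hi _ ih => exact h.retract i r hi ih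

lemma Stable.and {P P' : C → Prop} (h : Stable P) (h' : Stable P') :
    Stable (fun X => P X ∧ P' X) where
  shift X a hX := ⟨h.shift X a hX.1, h'.shift X a hX.2⟩
  cone T hT h₁ h₂ := ⟨h.cone T hT h₁.1 h₂.1, h'.cone T hT h₁.2 h₂.2⟩
  retract i r hi hY := ⟨h.retract i r hi hY.1, h'.retract i r hi hY.2⟩

lemma stable_thick (Q : C → Prop) : Stable (Thick Q) where
  shift _ a h := Thick.shift a h
  cone _ hT h₁ h₂ := Thick.cone hT h₁ h₂
  retract i r hi h := Thick.retract i r hi h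

lemma stable_boundedBelow : Stable (BoundedBelow (C := C)) where
  shift _ a h := h.shift a
  cone _ hT h₁ h₂ := BoundedBelow.obj₃ hT h₁ h₂
  retract i r h hY := boundedBelow_retract i r h hY

lemma stable_boundedAbove : Stable (BoundedAbove (C := C)) where
  shift _ a h := h.shift a
  cone _ hT h₁ h₂ := BoundedAbove.obj₃ hT h₁ h₂
  retract i r h hY := boundedAbove_retract i r h hY

/-- All homotopy groups `π_i X = [Σ^i S, X]` are finite. -/
def PiFinite (X : C) : Prop := ∀ i : ℤ, Finite ((𝟙_ C)⟦i⟧ ⟶ X)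

lemma stable_piFinite : Stable (PiFinite (C := C)) where
  shift _ a h := SmallHom.shift_right (P := fun A => Finite A) isSmallness_finite (W := 𝟙_ C) h a
  cone _ hT h₁ h₂ :=
    SmallHom.target₃ (P := fun A => Finite A) isSmallness_finite (W := 𝟙_ C) hT h₁ h₂
  retract i r h hY := fun t =>
    isSmallness_finite.of_surjective (hY t) (fun f => f ≫ r) (fun f => ⟨f ≫ i, by simp [h]⟩)

section tensor

variable [TensorTriangulated C]

lemma stable_isLocal {ι : Type} {E : ι → C} : Stable (IsLocal E) where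
  shift _ a h := h.shift a
  cone _ hT h₁ h₂ := IsLocal.obj₃ hT h₁ h₂
  retract i r h hY := by
    intro W hW g
    have := hY W hW (g ≫ i)
    calc g = g ≫ i ≫ r := by rw [h, Category.comp_id]
      _ = 0 := by rw [← Category.assoc, this, zero_comp]

lemma nonempty_tensor_shift (X Y : C) (a : ℤ) : Nonempty (X ⊗ (Y⟦a⟧) ≅ (X ⊗ Y)⟦a⟧) := by
  have h1 : ∀ Y : C, Nonempty (X ⊗ (Y⟦(1 : ℤ)⟧) ≅ (X ⊗ Y)⟦(1 : ℤ)⟧) :=
    fun Y => ⟨TensorTriangulated.shiftIso X Y⟩
  have h2 : ∀ Y : C, Nonempty (X ⊗ (Y⟦(-1 : ℤ)⟧) ≅ (X ⊗ Y)⟦(-1 : ℤ)⟧) := by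
    intro Y
    have e1 : X ⊗ Y ≅ (X ⊗ (Y⟦(-1 : ℤ)⟧))⟦(1 : ℤ)⟧ :=
      whiskerLeftIso X (shiftNegShift Y (1 : ℤ)).symm ≪≫
        TensorTriangulated.shiftIso X (Y⟦(-1 : ℤ)⟧)
    exact ⟨(shiftShiftNeg (X ⊗ (Y⟦(-1 : ℤ)⟧)) (1 : ℤ)).symm ≪≫
      (shiftFunctor C (-1 : ℤ)).mapIso e1.symm⟩
  induction a using Int.induction_on generalizing Y with
  | zero =>
    exact ⟨whiskerLeftIso X ((shiftFunctorZero C ℤ).app Y) ≪≫
      ((shiftFunctorZero C ℤ).app (X ⊗ Y)).symm⟩
  | succ a ih =>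
    obtain ⟨e⟩ := ih Y
    obtain ⟨e'⟩ := h1 (Y⟦(a : ℤ)⟧)
    exact ⟨whiskerLeftIso X ((shiftFunctorAdd C (a : ℤ) 1).app Y) ≪≫ e' ≪≫
      (shiftFunctor C (1 : ℤ)).mapIso e ≪≫ ((shiftFunctorAdd C (a : ℤ) 1).app (X ⊗ Y)).symm⟩
  | pred a ih =>
    obtain ⟨e⟩ := ih Y
    obtain ⟨e'⟩ := h2 (Y⟦(-(a : ℤ))⟧)
    exact ⟨whiskerLeftIso X ((shiftFunctorAdd C (-(a : ℤ)) (-1)).app Y) ≪≫ e' ≪≫
      (shiftFunctor C (-1 : ℤ)).mapIso e ≪≫
        ((shiftFunctorAdd C (-(a : ℤ)) (-1)).app (X ⊗ Y)).symm⟩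

/-- Stable properties of `V ⊗ X`, as properties of `X`. -/
lemma Stable.comap {P : C → Prop} (h : Stable P) (V : C) : Stable (fun X => P (V ⊗ X)) where
  shift X a hX := by
    obtain ⟨e⟩ := nonempty_tensor_shift V X a
    exact h.of_iso e.symm (h.shift _ a hX)
  cone _ hT h₁ h₂ := h.cone _ (TensorTriangulated.distinguished V _ hT) h₁ h₂
  retract i r hi hY := by
    refine h.retract (V ◁ i) (V ◁ r) ?_ hY
    rw [← MonoidalCategory.whiskerLeft_comp, hi, MonoidalCategory.whiskerLeft_id]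

/-- `X ⊗ -` maps thick subcategories to thick subcategories. -/
lemma thick_tensor {Q Q' : C → Prop} {X : C} (hQ : ∀ Y, Q Y → Thick Q' (X ⊗ Y)) {Y : C}
    (hY : Thick Q Y) : Thick Q' (X ⊗ Y) :=
  ((stable_thick Q').comap X).of_thick hQ hY

/-- All groups `π_i (M ⊗ X)` are finite.  For `M` the mod `p` Moore spectrum: all groups
`π_i (X / p)` are finite. -/
def FinMod (M X : C) : Prop := PiFinite (M ⊗ X)

lemma stable_finMod (M : C) : Stable (FinMod M) := stable_piFinite.comap M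

end tensor

end Vale.Agent.P221
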