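import Vale.Agent.P221.H929.Approx

/-!
# P221: finite spectra, types, fp-spectra
-/

set_option linter.unusedSectionVars false

open CategoryTheory Limits Pretriangulated MonoidalCategory Vale.Agent.P261

universe v u

namespace Vale.Agent.P221

variable {C : Type u} [Category.{v} C] [Preadditive C] [HasZeroObject C] [HasShift C ℤ]
    [∀ n : ℤ, (shiftFunctor C n).Additive] [Pretriangulated C] [MonoidalCategory C]

/-- Finite spectra: the thick subcategory generated by the unit (the sphere). -/
def FiniteSp (F : C) : Prop := Thick (fun W => W = 𝟙_ C) F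

/-- `K(i)_* F = 0`, for `F` in the thick subcategory generated by the sphere: for `i ≥ 1` this says
`K(i) ⊗ F = 0`, and for `i = 0` (rational homology) it says that all homotopy groups of `F` are
finite. -/
def Acyc (K : ℕ → C) : ℕ → C → Prop
  | 0, F => PiFinite F
  | i + 1, F => IsZero (K (i + 1) ⊗ F)

/-- `F` has type at least `n`: `K(i)_* F = 0` for all `i < n`. -/
def TypeGE (K : ℕ → C) (n : ℕ) (F : C) : Prop := ∀ i, i < n → Acyc K i F

/-- `π_* X` is finite in total: finitely many nonzero homotopy groups, each finite. -/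
def TotallyFinite (X : C) : Prop := BoundedBelow X ∧ BoundedAbove X ∧ PiFinite X

/-- `X` is an fp-spectrum of fp-type at most `n`. -/
def FP (K : ℕ → C) (n : ℕ) (X : C) : Prop :=
  BoundedBelow X ∧ ∀ V : C, FiniteSp V → TypeGE K (n + 1) V → TotallyFinite (V ⊗ X)

lemma TypeGE.mono {K : ℕ → C} {n m : ℕ} {F : C} (h : TypeGE K n F) (hm : m ≤ n) :
    TypeGE K m F := fun i hi => h i (hi.trans_le hm)

lemma stable_totallyFinite : Stable (TotallyFinite (C := C)) :=
  stable_boundedBelow.and (stable_boundedAbove.and stable_piFinite)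

section tensor

variable [TensorTriangulated C]

lemma thick_tensor_finite {Q : C → Prop} {X F : C} (hX : Thick Q X) (hF : FiniteSp F) :
    Thick Q (X ⊗ F) :=
  thick_tensor (fun _ hY => by rw [hY]; exact thick_of_iso hX (ρ_ X)) hF

lemma Stable.tensor_finite {P : C → Prop} (h : Stable P) {X F : C} (hX : P X)
    (hF : FiniteSp F) : P (X ⊗ F) :=
  h.of_thick (Q := fun W => W = X) (fun W hW => by rw [hW]; exact hX)
    (thick_tensor_finite (Thick.of rfl) hF)

/-- fp-spectra of fp-type at most `n` form a thick subcategory. -/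
lemma stable_FP (K : ℕ → C) (n : ℕ) : Stable (FP K n) where
  shift X a h := ⟨h.1.shift a, fun V hV hVn =>
    (stable_totallyFinite.comap V).shift X a (h.2 V hV hVn)⟩
  cone T hT h₁ h₂ := ⟨BoundedBelow.obj₃ hT h₁.1 h₂.1, fun V hV hVn =>
    (stable_totallyFinite.comap V).cone T hT (h₁.2 V hV hVn) (h₂.2 V hV hVn)⟩
  retract i r hi hY := ⟨boundedBelow_retract i r hi hY.1, fun V hV hVn =>
    (stable_totallyFinite.comap V).retract i r hi (hY.2 V hV hVn)⟩

end tensor

end Vale.Agent.P221
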