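import Vale.Agent.P221.H929.Tensor

/-!
# P221: `F ⊗ X` lies in `Thick(B)` for `F` finite of type `≥ n` and `X` fp of fp-type `≤ n`
-/

set_option linter.unusedSectionVars false

open CategoryTheory Limits Pretriangulated MonoidalCategory Vale.Agent.P261

universe v u

namespace Vale.Agent.P221

variable {C : Type u} [Category.{v} C] [Preadditive C] [HasZeroObject C] [HasShift C ℤ]
    [∀ n : ℤ, (shiftFunctor C n).Additive] [Pretriangulated C] [MonoidalCategory C]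

/-- The periodicity theorem: every finite spectrum of type at least `n` has a self map of positive
degree whose cofibre has type at least `n + 1`. -/
def Periodicity (K : ℕ → C) (n : ℕ) : Prop :=
  ∀ F : C, FiniteSp F → TypeGE K n F → ∃ (d : ℤ) (_ : 0 < d) (v : F⟦d⟧ ⟶ F) (F' : C)
    (g : F ⟶ F') (e : F' ⟶ (F⟦d⟧)⟦(1 : ℤ)⟧), Triangle.mk v g e ∈ distTriang C ∧
      TypeGE K (n + 1) F'

lemma FiniteSp.obj₃ {F F' : C} {d : ℤ} {v : F⟦d⟧ ⟶ F} {g : F ⟶ F'}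
    {e : F' ⟶ (F⟦d⟧)⟦(1 : ℤ)⟧} (hT : Triangle.mk v g e ∈ distTriang C) (hF : FiniteSp F) :
    FiniteSp F' := Thick.cone hT (Thick.shift d hF) hF

lemma finite_of_iso {A X Y : C} (e : X ≅ Y) (h : Finite (A ⟶ X)) : Finite (A ⟶ Y) :=
  isSmallness_finite.of_surjective h (fun f => f ≫ e.hom) (fun f => ⟨f ≫ e.inv, by simp⟩)

lemma finite_shift {A X : C} {i : ℤ} (a : ℤ) (h : Finite (A⟦i⟧ ⟶ X)) :
    Finite (A⟦i + a⟧ ⟶ X⟦a⟧) :=
  isSmallness_finite.of_surjective h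
    (fun f => (shiftFunctorAdd C i a).hom.app A ≫ f⟦a⟧') (fun f => by
      obtain ⟨g, hg⟩ := (shiftFunctor C a).map_surjective
        ((shiftFunctorAdd C i a).inv.app A ≫ f)
      exact ⟨g, by beta_reduce; rw [hg]; simp⟩)

lemma finite_unshift {A X : C} {i : ℤ} (a : ℤ) (h : Finite (A⟦i + a⟧ ⟶ X⟦a⟧)) :
    Finite (A⟦i⟧ ⟶ X) :=
  Finite.of_injective (fun f : A⟦i⟧ ⟶ X => (shiftFunctorAdd C i a).hom.app A ≫ f⟦a⟧')
    (fun f g hfg => (shiftFunctor C a).map_injective ((cancel_epi _).mp hfg))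

variable [BraidedCategory C] [TensorTriangulated C]

lemma boundedBelow_tensor {F X : C} (hF : FiniteSp F) (hX : BoundedBelow X) :
    BoundedBelow (F ⊗ X) :=
  (stable_boundedBelow.tensor_finite hX hF).of_iso (β_ X F)

lemma boundedAbove_tensor {F X : C} (hF : FiniteSp F) (hX : BoundedAbove X) :
    BoundedAbove (F ⊗ X) :=
  (stable_boundedAbove.tensor_finite hX hF).of_iso (β_ X F)

lemma isLocal_tensor {ι : Type} {E : ι → C} {F X : C} (hF : FiniteSp F) (hX : IsLocal E X) :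
    IsLocal E (F ⊗ X) :=
  (stable_isLocal.tensor_finite hX hF).of_iso (β_ X F)

variable {K : ℕ → C} {n : ℕ}

/-- For `X` fp of fp-type at most `n` and `F` finite of type at least `n`, the groups
`π_i (F ⊗ X)` are finite. -/
theorem finite_pi_tensor (hper : Periodicity K n) {X F : C} (hX : FP K n X) (hF : FiniteSp F)
    (hFn : TypeGE K n F) (i : ℤ) : Finite ((𝟙_ C)⟦i⟧ ⟶ F ⊗ X) := by
  obtain ⟨d, hd, v, F', g, e, hT, hF'⟩ := hper F hF hFn
  have hfin' : ∀ i : ℤ, Finite ((𝟙_ C)⟦i⟧ ⟶ X ⊗ F') := fun i =>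
    finite_of_iso (β_ F' X) ((hX.2 F' (FiniteSp.obj₃ hT hF) hF').2.2 i)
  obtain ⟨N, hN⟩ := (boundedBelow_tensor hF hX.1).of_iso (β_ F X)
  have hT' := TensorTriangulated.distinguished X _ hT
  obtain ⟨ε⟩ := nonempty_tensor_shift X F d
  suffices h : ∀ (k : ℕ) (i : ℤ), i < N + k * d → Finite ((𝟙_ C)⟦i⟧ ⟶ X ⊗ F) by
    obtain ⟨k, hk⟩ : ∃ k : ℕ, i < N + k * d := by
      refine ⟨(i - N).toNat + 1, ?_⟩
      have h1 : i - N ≤ ((i - N).toNat : ℤ) := Int.self_le_toNat _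
      push_cast
      nlinarith
    exact finite_of_iso (β_ X F) (h k i hk)
  intro k
  induction k with
  | zero =>
    intro i hi
    have h0 := hN i (by simpa using hi)
    have hs : Subsingleton ((𝟙_ C)⟦i⟧ ⟶ X ⊗ F) := ⟨fun a b => by rw [h0 a, h0 b]⟩
    exact Finite.of_subsingleton
  | succ k ih =>
    intro i hi
    have h1 : Finite ((𝟙_ C)⟦i⟧ ⟶ X ⊗ (F⟦d⟧)) := by
      have h2 := finite_shift (A := 𝟙_ C) (X := X ⊗ F) (i := i - d) d
        (ih (i - d) (by push_cast at hi; linarith))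
      have h3 : i - d + d = i := by ring
      rw [h3] at h2
      exact finite_of_iso ε.symm h2
    exact isSmallness_finite.of_exact h1 (hfin' i) (fun f => f ≫ (X ◁ v))
      (AddMonoidHom.mk' (fun f : (𝟙_ C)⟦i⟧ ⟶ X ⊗ F => f ≫ (X ◁ g)) (fun _ _ => by simp))
      (fun f hf => by
        obtain ⟨g', hg'⟩ := Triangle.coyoneda_exact₂ _ hT' f hf
        exact ⟨g', hg'.symm⟩)

/-- `F ⊗ Y` is periodic for `Y` `K(n)`-local and `F` finite of type at least `n`. -/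
theorem periodic (hn : 1 ≤ n) (hper : Periodicity K n) {Y F : C} (hY : IsLocal (fun _ : Unit => K n) Y)
    (hF : FiniteSp F) (hFn : TypeGE K n F) :
    ∃ d : ℤ, 0 < d ∧ Nonempty ((F ⊗ Y)⟦d⟧ ≅ F ⊗ Y) := by
  obtain ⟨d, hd, v, F', g, e, hT, hF'⟩ := hper F hF hFn
  have hloc : IsLocal (fun _ : Unit => K n) (F' ⊗ Y) :=
    isLocal_tensor (FiniteSp.obj₃ hT hF) hY
  have hz : IsZero (F' ⊗ Y) := by
    rw [IsZero.iff_id_eq_zero]
    refine hloc _ (fun _ => ?_) _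
    have hK : IsZero (K n ⊗ F') := by
      have h1 := hF' n (Nat.lt_succ_self n)
      obtain ⟨m, rfl⟩ : ∃ m, n = m + 1 := ⟨n - 1, by omega⟩
      exact h1
    exact (isZero_tensor_left hK).of_iso (α_ (K n) F' Y).symm
  have hz' : IsZero (Y ⊗ F') := hz.of_iso (β_ Y F')
  have hi : IsIso (Y ◁ v) :=
    (Triangle.isZero₃_iff_isIso₁ _ (TensorTriangulated.distinguished Y _ hT)).1 hz'
  obtain ⟨ε⟩ := nonempty_tensor_shift Y F d
  exact ⟨d, hd, ⟨(shiftFunctor C d).mapIso (β_ F Y) ≪≫ ε.symm ≪≫ asIso (Y ◁ v) ≪≫ β_ Y F⟩⟩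

theorem finite_pi_local (hn : 1 ≤ n) (hper : Periodicity K n) {X Y F : C} (hX : FP K n X) (f : X ⟶ Y)
    (hY : IsLocal (fun _ : Unit => K n) Y) (hF : FiniteSp F) (hFn : TypeGE K n F)
    (hf : HighIso (F ◁ f)) (i : ℤ) : Finite ((𝟙_ C)⟦i⟧ ⟶ F ⊗ Y) := by
  obtain ⟨d, hd, ⟨ε⟩⟩ := periodic hn hper hY hF hFn
  obtain ⟨N, hN⟩ := hf
  have hlarge : ∀ i : ℤ, N ≤ i → Finite ((𝟙_ C)⟦i⟧ ⟶ F ⊗ Y) := fun i hi =>
    isSmallness_finite.of_surjective (finite_pi_tensor hper hX hF hFn i)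
      (fun g => g ≫ (F ◁ f)) (hN i hi).2
  suffices h : ∀ (k : ℕ) (i : ℤ), N - k * d ≤ i → Finite ((𝟙_ C)⟦i⟧ ⟶ F ⊗ Y) by
    obtain ⟨k, hk⟩ : ∃ k : ℕ, N - k * d ≤ i := by
      refine ⟨(N - i).toNat, ?_⟩
      have h1 : N - i ≤ ((N - i).toNat : ℤ) := Int.self_le_toNat _
      have h2 : (0 : ℤ) ≤ ((N - i).toNat : ℤ) := Int.natCast_nonneg _
      nlinarith
    exact h k i hk
  intro k
  induction k with
  | zero => intro i hi; exact hlarge i (by simpa using hi)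
  | succ k ih =>
    intro i hi
    have h1 : Finite ((𝟙_ C)⟦i + d⟧ ⟶ F ⊗ Y) := ih (i + d) (by push_cast at hi; linarith)
    exact finite_unshift d (finite_of_iso ε.symm h1)

/-- Finite homotopy groups imply finite `π_i (M ⊗ X)`. -/
lemma finMod_of_piFinite {M : C} {Q : C → Prop} (S : Setup M Q) {X : C}
    (h : PiFinite X) : FinMod M X := by
  obtain ⟨c, a, b, hM⟩ := S.moore
  have h1 : PiFinite (X ⊗ 𝟙_ C) := stable_piFinite.of_iso (ρ_ X).symm h
  exact stable_piFinite.of_iso (β_ X M)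
    (stable_piFinite.cone _ (TensorTriangulated.distinguished X _ hM) h1 h1)

/-- **The torsion case.**  If `X` is fp of fp-type at most `n`, and `F` is finite of type at least
`n`, then `F ⊗ X` lies in the thick subcategory generated by `B`. -/
theorem thick_tensor_of_type {M B LB : C} (S : Setup M (fun W => W = B)) (hn : 1 ≤ n)
    (hper : Periodicity K n)
    (hloc : ∀ X : C, ∃ (Y : C) (f : X ⟶ Y), IsBousfieldLocalization (fun _ : Unit => K n) f)
    (hMR : ∀ {X Y : C} (f : X ⟶ Y), FP K n X →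
      IsBousfieldLocalization (fun _ : Unit => K n) f →
      ∀ F : C, FiniteSp F → TypeGE K n F → HighIso (F ◁ f))
    (hB : FP K n B) (ℓ : B ⟶ LB) (hℓ : IsBousfieldLocalization (fun _ : Unit => K n) ℓ)
    (hLP : ∀ Y : C, IsLocal (fun _ : Unit => K n) Y →
      (∀ F : C, FiniteSp F → TypeGE K n F → ∀ i : ℤ, Finite ((𝟙_ C)⟦i⟧ ⟶ F ⊗ Y)) →
      Thick (fun W => W = LB) Y)
    {X F : C} (hX : FP K n X) (hF : FiniteSp F) (hFn : TypeGE K n F) :
    Thick (fun W => W = B) (F ⊗ X) := by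
  obtain ⟨Y, f, hf⟩ := hloc X
  have hYth : Thick (fun W => W = LB) Y := hLP Y hf.2 (fun F hF hFn i =>
    finite_pi_local hn hper hX f hf.2 hF hFn (hMR f hX hf F hF hFn) i)
  have hFB : Thick (fun W => W = B) (F ⊗ B) :=
    thick_of_iso (thick_tensor_finite (Thick.of rfl) hF) (β_ F B)
  have hFLB : App (fun W => W = B) (F ⊗ LB) ∧ FinMod M (F ⊗ LB) :=
    ⟨⟨F ⊗ B, F ◁ ℓ, hFB, hMR ℓ hB hℓ F hF hFn⟩, finMod_of_piFinite S (fun i =>
      finite_pi_local hn hper hB ℓ hℓ.2 hF hFn (hMR ℓ hB hℓ F hF hFn) i)⟩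
  have hFY : Thick (fun W => W = F ⊗ LB) (F ⊗ Y) :=
    thick_tensor (fun W hW => by rw [hW]; exact Thick.of rfl) hYth
  have happ := (app_of_thick S (Q' := fun W => W = F ⊗ LB)
    (fun W hW => by rw [hW]; exact hFLB) hFY).1
  exact thick_of_app S happ ⟨boundedBelow_tensor hF hX.1,
    finMod_of_piFinite S (finite_pi_tensor hper hX hF hFn)⟩ (F ◁ f) (hMR f hX hf F hF hFn)

end Vale.Agent.P221
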